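import Vale.Agent.Lib.P243.Abs.Base

/-!
# P243, relative form: numerical data of two fans with stronger twist (`c = 1/5`)
-/

open scoped BigOperators

namespace Vale.Agent.P243

/-- second slope of the direction of the cylinder with midpoint `m` -/
noncomputable def nuR (m : ℝ) : ℝ := 2 * m / 5

/-- first slope of the direction of the cylinder with midpoint `m`; `h` is half the width -/
noncomputable def omR (h m : ℝ) : ℝ := -(1 + m ^ 2 - h ^ 2) / 5

/-- the radial function is `4 * (1 + eeR (m ^ 2) + h)` -/
noncomputable def eeR (u : ℝ) : ℝ := 2 * (u + u ^ 2) / 25 + 26 * u ^ 4 / 625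

/-- normalised radius -/
noncomputable def rhoR (h m : ℝ) : ℝ := 1 + eeR (m ^ 2) + h

end Vale.Agent.P243
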