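import Vale.Agent.Lib.P243.Rel.Base

/-!
# The sum of the areas, relative form

With `h = 1/N`, `m = mu N k`, `u = m²`: `1 - omR h m = 1 + (1+u-h²)/5`.  Numerically the sum is
`0.8660 + 1.8 h` (limit: the integral over `u = x²`, `x ∈ [0,1]`, of
`(1 + eeR u)² / (1 + (1+u)/5)`); the claim is `≤ 868/1000`.

Suggested proof: exactly as in `Vale.Agent.Lib.P243.Abs.Sum` (same `tau`, `mu`, same telescoping):
find a polynomial `g(u) = a0 - a1 u + a2 u² + a3 u³` (rational coefficients, `a1,a2,a3 ≥ 0`) with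
`(1 + eeR u + h)² ≤ g(u) (1 + (1+u-h²)/5)` on `[0,1]` for `0 < h ≤ 1/10000`
(e.g. by Bernstein coefficients) and `a0 - a1/3 + a2/5 + a3/7 ≤ 0.8679`.
-/

open scoped BigOperators

namespace Vale.Agent.P243

/-- the comparison function -/
noncomputable def SumR_g (u : ℝ) : ℝ :=
  8346 / 10000 + 92 / 10000 * u + 5695 / 100000 * u ^ 2 + 1318 / 10000 * u ^ 3

/-- the polynomial inequality, with positive Bernstein coefficients -/
theorem SumR_poly {u : ℝ} (h0 : 0 ≤ u) (h1 : u ≤ 1) :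
    (1 + 1 / 10000 + eeR u) ^ 2 ≤ SumR_g u * (1 + (1 + u - 1 / 100000000) / 5) := by
  obtain ⟨w, hw⟩ : ∃ w : ℝ, w = 1 - u := ⟨_, rfl⟩
  have hw0 : 0 ≤ w := by linarith
  have key : 0 ≤
      (3299970827 / 2500000000000) * (u ^ 0 * w ^ 9) +
      (74559737397 / 2500000000000) * (u ^ 1 * w ^ 8) +
      (948355796477 / 10000000000000) * (u ^ 2 * w ^ 7) +
      (964090182111 / 10000000000000) * (u ^ 3 * w ^ 6) +
      (274782046769 / 10000000000000) * (u ^ 4 * w ^ 5) +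
      (824909204523 / 10000000000000) * (u ^ 5 * w ^ 4) +
      (2167198094983 / 10000000000000) * (u ^ 6 * w ^ 3) +
      (1878583730477 / 10000000000000) * (u ^ 7 * w ^ 2) +
      (577157324511 / 10000000000000) * (u ^ 8 * w ^ 1) +
      (14871079349 / 10000000000000) * (u ^ 9 * w ^ 0) := by
    positivity
  have e : SumR_g u * (1 + (1 + u - 1 / 100000000) / 5) - (1 + 1 / 10000 + eeR u) ^ 2 =
      (3299970827 / 2500000000000) * (u ^ 0 * w ^ 9) +
      (74559737397 / 2500000000000) * (u ^ 1 * w ^ 8) +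
      (948355796477 / 10000000000000) * (u ^ 2 * w ^ 7) +
      (964090182111 / 10000000000000) * (u ^ 3 * w ^ 6) +
      (274782046769 / 10000000000000) * (u ^ 4 * w ^ 5) +
      (824909204523 / 10000000000000) * (u ^ 5 * w ^ 4) +
      (2167198094983 / 10000000000000) * (u ^ 6 * w ^ 3) +
      (1878583730477 / 10000000000000) * (u ^ 7 * w ^ 2) +
      (577157324511 / 10000000000000) * (u ^ 8 * w ^ 1) +
      (14871079349 / 10000000000000) * (u ^ 9 * w ^ 0) := by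
    rw [hw]
    unfold SumR_g eeR
    ring
  linarith

theorem SumR_key {u h : ℝ} (hu0 : 0 ≤ u) (hu1 : u ≤ 1) (h0 : 0 ≤ h) (h1 : h ≤ 1 / 10000) :
    (1 + eeR u + h) ^ 2 / (1 + (1 + u - h ^ 2) / 5) ≤ SumR_g u := by
  have hh : h ^ 2 ≤ 1 / 100000000 := by nlinarith
  have hp := SumR_poly hu0 hu1
  have hee : 0 ≤ eeR u := by
    unfold eeR
    positivity
  have hg : 0 ≤ SumR_g u := by
    unfold SumR_g
    positivity
  have hr : (1 + eeR u + h) ^ 2 ≤ (1 + 1 / 10000 + eeR u) ^ 2 := by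
    apply pow_le_pow_left₀ (by positivity)
    linarith
  have hpos : 0 < 1 + (1 + u - h ^ 2) / 5 := by linarith
  rw [div_le_iff₀ hpos]
  calc (1 + eeR u + h) ^ 2 ≤ (1 + 1 / 10000 + eeR u) ^ 2 := hr
    _ ≤ _ := hp
    _ ≤ _ := mul_le_mul_of_nonneg_left (by linarith) hg

theorem SumR_term {N : ℕ} (hN : 0 < N) (k : ℕ) :
    1 / (N : ℝ) * SumR_g (mu N k ^ 2) ≤ 8346 / 10000 * (1 / (N : ℝ)) +
      92 / 10000 * ((tau N (k + 1) ^ 3 - tau N k ^ 3) / 6) +
      5695 / 100000 * ((tau N (k + 1) ^ 5 - tau N k ^ 5) / 10) +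
      1318 / 10000 * ((tau N (k + 1) ^ 7 - tau N k ^ 7) / 14) := by
  have hN0 : (0 : ℝ) < N := by exact_mod_cast hN
  obtain ⟨h, hh⟩ : ∃ h : ℝ, h = 1 / (N : ℝ) := ⟨_, rfl⟩
  obtain ⟨m, hm⟩ : ∃ m : ℝ, m = mu N k := ⟨_, rfl⟩
  have hh0 : 0 < h := by rw [hh]; positivity
  have e1 : tau N k = m - h := by
    rw [hm, hh]
    unfold tau mu
    field_simp
    ring
  have e2 : tau N (k + 1) = m + h := by
    rw [hm, hh]
    unfold tau mu
    push_cast
    field_simp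
    ring
  rw [e1, e2, ← hh, ← hm]
  have i5 : h * m ^ 4 ≤ ((m + h) ^ 5 - (m - h) ^ 5) / 10 := by
    have : ((m + h) ^ 5 - (m - h) ^ 5) / 10 = h * m ^ 4 + (2 * (h ^ 3 * m ^ 2) + h ^ 5 / 5) := by
      ring
    rw [this]
    have : 0 ≤ 2 * (h ^ 3 * m ^ 2) + h ^ 5 / 5 := by positivity
    linarith
  have i7 : h * m ^ 6 ≤ ((m + h) ^ 7 - (m - h) ^ 7) / 14 := by
    have : ((m + h) ^ 7 - (m - h) ^ 7) / 14 =
        h * m ^ 6 + (5 * (h ^ 3 * m ^ 4) + 3 * (h ^ 5 * m ^ 2) + h ^ 7 / 7) := by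
      ring
    rw [this]
    have : 0 ≤ 5 * (h ^ 3 * m ^ 4) + 3 * (h ^ 5 * m ^ 2) + h ^ 7 / 7 := by positivity
    linarith
  have i3 : h * m ^ 2 ≤ ((m + h) ^ 3 - (m - h) ^ 3) / 6 := by
    have : ((m + h) ^ 3 - (m - h) ^ 3) / 6 = h * m ^ 2 + h ^ 3 / 3 := by ring
    rw [this]
    have : 0 ≤ h ^ 3 / 3 := by positivity
    linarith
  unfold SumR_g
  have e3 : h * (8346 / 10000 + 92 / 10000 * m ^ 2 + 5695 / 100000 * (m ^ 2) ^ 2 +
      1318 / 10000 * (m ^ 2) ^ 3) = 8346 / 10000 * h + 92 / 10000 * (h * m ^ 2) +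
      5695 / 100000 * (h * m ^ 4) + 1318 / 10000 * (h * m ^ 6) := by ring
  rw [e3]
  linarith

theorem sumR_le (N : ℕ) (hN : 10000 ≤ N) :
    ∑ k ∈ Finset.range N, (1 / (N : ℝ)) * rhoR (1 / N) (mu N k) ^ 2 /
      (1 - omR (1 / N) (mu N k)) ≤ 868 / 1000 := by
  have hN0 : (0 : ℝ) < N := by
    have : 0 < N := by omega
    exact_mod_cast this
  have hN1 : (10000 : ℝ) ≤ N := by exact_mod_cast hN
  have hh0 : 0 ≤ 1 / (N : ℝ) := by positivity
  have hh1 : 1 / (N : ℝ) ≤ 1 / 10000 := by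
    apply one_div_le_one_div_of_le (by norm_num) hN1
  have h1 : ∀ k ∈ Finset.range N, (1 / (N : ℝ)) * rhoR (1 / N) (mu N k) ^ 2 /
      (1 - omR (1 / N) (mu N k)) ≤
      8346 / 10000 * (1 / (N : ℝ)) +
      92 / 10000 * ((tau N (k + 1) ^ 3 - tau N k ^ 3) / 6) +
      5695 / 100000 * ((tau N (k + 1) ^ 5 - tau N k ^ 5) / 10) +
      1318 / 10000 * ((tau N (k + 1) ^ 7 - tau N k ^ 7) / 14) := by
    intro k hk
    have hk' : k < N := Finset.mem_range.1 hk
    have hkr : (k : ℝ) + 1 ≤ N := by exact_mod_cast hk'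
    have hm1 : mu N k ≤ 1 := by
      unfold mu
      rw [div_le_one hN0]
      linarith
    have hm2 : -1 ≤ mu N k := by
      unfold mu
      rw [le_div_iff₀ hN0]
      have : (0 : ℝ) ≤ k := Nat.cast_nonneg k
      linarith
    have hu0 : 0 ≤ mu N k ^ 2 := sq_nonneg _
    have hu1 : mu N k ^ 2 ≤ 1 := by nlinarith
    refine le_trans ?_ (SumR_term (by omega) k)
    rw [mul_div_assoc]
    apply mul_le_mul_of_nonneg_left _ hh0
    have h2 := SumR_key hu0 hu1 hh0 hh1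
    have e1 : 1 - omR (1 / (N : ℝ)) (mu N k) =
        1 + (1 + mu N k ^ 2 - (1 / (N : ℝ)) ^ 2) / 5 := by
      unfold omR
      ring
    rw [e1]
    exact h2
  refine (Finset.sum_le_sum h1).trans ?_
  have t0 : tau N 0 = -1 := by
    unfold tau
    field_simp
    simp
  have tN : tau N N = 1 := by
    unfold tau
    field_simp
    ring
  have s3 : ∑ k ∈ Finset.range N, (tau N (k + 1) ^ 3 - tau N k ^ 3) = 2 := by
    rw [Finset.sum_range_sub (fun k => tau N k ^ 3), t0, tN]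
    norm_num
  have s5 : ∑ k ∈ Finset.range N, (tau N (k + 1) ^ 5 - tau N k ^ 5) = 2 := by
    rw [Finset.sum_range_sub (fun k => tau N k ^ 5), t0, tN]
    norm_num
  have s7 : ∑ k ∈ Finset.range N, (tau N (k + 1) ^ 7 - tau N k ^ 7) = 2 := by
    rw [Finset.sum_range_sub (fun k => tau N k ^ 7), t0, tN]
    norm_num
  have e : ∑ k ∈ Finset.range N, (8346 / 10000 * (1 / (N : ℝ)) +
      92 / 10000 * ((tau N (k + 1) ^ 3 - tau N k ^ 3) / 6) +
      5695 / 100000 * ((tau N (k + 1) ^ 5 - tau N k ^ 5) / 10) +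
      1318 / 10000 * ((tau N (k + 1) ^ 7 - tau N k ^ 7) / 14)) =
      (N : ℝ) * (8346 / 10000 * (1 / (N : ℝ))) +
      92 / 60000 * ∑ k ∈ Finset.range N, (tau N (k + 1) ^ 3 - tau N k ^ 3) +
      5695 / 1000000 * ∑ k ∈ Finset.range N, (tau N (k + 1) ^ 5 - tau N k ^ 5) +
      1318 / 140000 * ∑ k ∈ Finset.range N, (tau N (k + 1) ^ 7 - tau N k ^ 7) := by
    have c : (N : ℝ) * (8346 / 10000 * (1 / (N : ℝ))) =
        ∑ _k ∈ Finset.range N, (8346 / 10000 * (1 / (N : ℝ))) := by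
      rw [Finset.sum_const, Finset.card_range, nsmul_eq_mul]
    rw [c, Finset.mul_sum, Finset.mul_sum, Finset.mul_sum, ← Finset.sum_add_distrib,
      ← Finset.sum_add_distrib, ← Finset.sum_add_distrib]
    apply Finset.sum_congr rfl
    intro k _
    ring
  rw [e, s3, s5, s7]
  have e2 : (N : ℝ) * (8346 / 10000 * (1 / (N : ℝ))) = 8346 / 10000 := by
    field_simp
  rw [e2]
  norm_num

end Vale.Agent.P243
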