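import Vale.Agent.Lib.P243.Abs.Main
import Vale.Agent.Lib.P243.Rel.Cover
import Vale.Agent.Lib.P243.Rel.Sum

/-!
# The two fans with stronger twist and their directionwise relative area
-/

open MeasureTheory
open scoped BigOperators ENNReal

namespace Vale.Agent.P243

/-! ### shadows -/

theorem norm_sq_three (w : E3) : ‖w‖ ^ 2 = w 0 ^ 2 + w 1 ^ 2 + w 2 ^ 2 := by
  rw [EuclideanSpace.norm_sq_eq, Fin.sum_univ_three]
  simp

theorem shadow_dir0 (w : E3) (h0 : 0 < w 0) (h : |w 1| + |w 2| ≤ w 0) :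
    64 * w 0 / ‖w‖ ≤ shadow (‖w‖⁻¹ • w) tet := by
  have hw : w ≠ 0 := by
    intro hh
    rw [hh] at h0
    simp at h0
  have hn : 0 < ‖w‖ := norm_pos_iff.2 hw
  have h0' : w 0 ≠ 0 := h0.ne'
  have hL : rowMap ![-w 1, w 0, 0] ![-w 2, 0, w 0] w = 0 := by
    rw [rowMap_apply]
    funext i
    fin_cases i
    · simp; ring
    · simp; ring
  have hker : ∀ x, rowMap ![-w 1, w 0, 0] ![-w 2, 0, w 0] x = 0 → ∃ c : ℝ, x = c • w := by
    intro x hx
    rw [rowMap_apply] at hx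
    have e0 := congrFun hx 0
    have e1 := congrFun hx 1
    simp at e0 e1
    refine ⟨x 0 / w 0, ?_⟩
    ext i
    fin_cases i
    · simp
      field_simp
    · simp
      field_simp
      linarith
    · simp
      field_simp
      linarith
  have hsurj : Function.Surjective (rowMap ![-w 1, w 0, 0] ![-w 2, 0, w 0]) := by
    intro z
    refine ⟨!₂[0, z 0 / w 0, z 1 / w 0], ?_⟩
    rw [rowMap_apply]
    funext i
    fin_cases i
    · simp
      field_simp
    · simp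
      field_simp
  have hs := shadow_rowMap _ _ w hw hL hker hsurj tet tet_isCompact
  have hg : gram ![-w 1, w 0, 0] ![-w 2, 0, w 0] = (w 0 * ‖w‖) ^ 2 := by
    rw [mul_pow, norm_sq_three]
    simp only [gram, Matrix.cons_val_zero, Matrix.cons_val_one, Matrix.cons_val]
    ring
  rw [hs, hg, Real.sqrt_sq (by positivity)]
  have hv := image_case1 (w 0) (w 1) (w 2) (by rw [abs_of_pos h0]; exact h)
  rw [div_le_div_iff₀ hn (by positivity)]
  have hv' : 64 * w 0 ^ 2 * ‖w‖ ≤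
      (volume (rowMap ![-w 1, w 0, 0] ![-w 2, 0, w 0] '' tet)).toReal * ‖w‖ :=
    mul_le_mul_of_nonneg_right hv hn.le
  calc 64 * w 0 * (w 0 * ‖w‖) = 64 * w 0 ^ 2 * ‖w‖ := by ring
    _ ≤ _ := hv'

theorem shadow_dir1 (w : E3) (h0 : 0 < w 1) (h : |w 0| + |w 2| ≤ w 1) :
    64 * w 1 / ‖w‖ ≤ shadow (‖w‖⁻¹ • w) tet := by
  have hw : w ≠ 0 := by
    intro hh
    rw [hh] at h0
    simp at h0
  have hn : 0 < ‖w‖ := norm_pos_iff.2 hw
  have h0' : w 1 ≠ 0 := h0.ne'
  have hL : rowMap ![w 1, -w 0, 0] ![0, -w 2, w 1] w = 0 := by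
    rw [rowMap_apply]
    funext i
    fin_cases i
    · simp; ring
    · simp; ring
  have hker : ∀ x, rowMap ![w 1, -w 0, 0] ![0, -w 2, w 1] x = 0 → ∃ c : ℝ, x = c • w := by
    intro x hx
    rw [rowMap_apply] at hx
    have e0 := congrFun hx 0
    have e1 := congrFun hx 1
    simp at e0 e1
    refine ⟨x 1 / w 1, ?_⟩
    ext i
    fin_cases i
    · simp
      field_simp
      linarith
    · simp
      field_simp
    · simp
      field_simp
      linarith
  have hsurj : Function.Surjective (rowMap ![w 1, -w 0, 0] ![0, -w 2, w 1]) := by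
    intro z
    refine ⟨!₂[z 0 / w 1, 0, z 1 / w 1], ?_⟩
    rw [rowMap_apply]
    funext i
    fin_cases i
    · simp
      field_simp
    · simp
      field_simp
  have hs := shadow_rowMap _ _ w hw hL hker hsurj tet tet_isCompact
  have hg : gram ![w 1, -w 0, 0] ![0, -w 2, w 1] = (w 1 * ‖w‖) ^ 2 := by
    rw [mul_pow, norm_sq_three]
    simp only [gram, Matrix.cons_val_zero, Matrix.cons_val_one, Matrix.cons_val]
    ring
  rw [hs, hg, Real.sqrt_sq (by positivity)]
  have hv := image_case1 (w 1) (w 0) (w 2) (by rw [abs_of_pos h0]; exact h)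
  have e : rowMap ![w 1, -w 0, 0] ![0, -w 2, w 1] '' tet = shMap (w 1) (w 0) (w 2) '' tet := by
    apply Set.Subset.antisymm
    · rintro _ ⟨y, hy, rfl⟩
      refine ⟨!₂[y 1, y 0, y 2], tet_swap01 y hy, ?_⟩
      rw [shMap, rowMap_apply, rowMap_apply]
      funext i
      fin_cases i
      · simp; ring
      · simp
    · rintro _ ⟨y, hy, rfl⟩
      refine ⟨!₂[y 1, y 0, y 2], tet_swap01 y hy, ?_⟩
      rw [shMap, rowMap_apply, rowMap_apply]
      funext i
      fin_cases i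
      · simp; ring
      · simp
  rw [e, div_le_div_iff₀ hn (by positivity)]
  have hv' : 64 * w 1 ^ 2 * ‖w‖ ≤
      (volume (shMap (w 1) (w 0) (w 2) '' tet)).toReal * ‖w‖ :=
    mul_le_mul_of_nonneg_right hv hn.le
  calc 64 * w 1 * (w 1 * ‖w‖) = 64 * w 1 ^ 2 * ‖w‖ := by ring
    _ ≤ _ := hv'

/-! ### norms of the axes -/

theorem norm_axis1 (o n : ℝ) : 2 * ‖axis1 o n‖ = Real.sqrt (2 * (1 + o ^ 2 + 2 * n ^ 2)) := by
  rw [eq_comm, Real.sqrt_eq_iff_mul_self_eq (by positivity) (by positivity)]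
  have h := norm_sq_three (axis1 o n)
  have e : (axis1 o n) 0 = (1 - o) / 2 ∧ (axis1 o n) 1 = (1 + o) / 2 ∧ (axis1 o n) 2 = n := by
    refine ⟨?_, ?_, ?_⟩ <;> simp [axis1]
  rw [e.1, e.2.1, e.2.2] at h
  nlinarith

theorem norm_axis2 (o n : ℝ) : 2 * ‖axis2 o n‖ = Real.sqrt (2 * (1 + o ^ 2 + 2 * n ^ 2)) := by
  rw [eq_comm, Real.sqrt_eq_iff_mul_self_eq (by positivity) (by positivity)]
  have h := norm_sq_three (axis2 o n)
  have e : (axis2 o n) 0 = -(1 + o) / 2 ∧ (axis2 o n) 1 = (1 - o) / 2 ∧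
      (axis2 o n) 2 = -n := by
    refine ⟨?_, ?_, ?_⟩ <;> simp [axis2]
  rw [e.1, e.2.1, e.2.2] at h
  nlinarith

/-! ### bases -/

/-- the base triangle of the sector `k` -/
noncomputable def baseR (N k : ℕ) : Set (Fin 2 → ℝ) :=
  tri ![0, -4]
    ![4 * rhoR (1 / N) (mu N k) * tau N k, 4 * rhoR (1 / N) (mu N k) - 4]
    ![4 * rhoR (1 / N) (mu N k) * tau N (k + 1), 4 * rhoR (1 / N) (mu N k) - 4]

theorem baseR_compact (N k : ℕ) : IsCompact (baseR N k) := isCompact_tri _ _ _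

theorem eeR_nonneg (u : ℝ) (hu : 0 ≤ u) : 0 ≤ eeR u := by
  unfold eeR
  positivity

theorem rhoR_ge_one (h m : ℝ) (hh : 0 ≤ h) : 1 ≤ rhoR h m := by
  have := eeR_nonneg (m ^ 2) (sq_nonneg m)
  unfold rhoR
  linarith

theorem volume_baseR (N k : ℕ) (hN : 0 < N) :
    (volume (baseR N k)).toReal = 16 * ((1 / (N : ℝ)) * rhoR (1 / N) (mu N k) ^ 2) := by
  have hN' : (0 : ℝ) < N := by exact_mod_cast hN
  have hr := rhoR_ge_one (1 / (N : ℝ)) (mu N k) (by positivity)
  have ht := tau_sub N k hN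
  set r := rhoR (1 / (N : ℝ)) (mu N k) with hrdef
  rw [baseR, volume_tri, ENNReal.toReal_ofReal (by positivity)]
  simp only [Matrix.cons_val_zero, Matrix.cons_val_one, Matrix.cons_val]
  rw [← hrdef]
  have e : (4 * r * tau N k - 0) * (4 * r - 4 - -4) - (4 * r * tau N (k + 1) - 0) * (4 * r - 4 - -4)
      = -(16 * r ^ 2 * (2 / N)) := by
    rw [← ht]
    ring
  rw [e, abs_neg, abs_of_nonneg (by positivity)]
  field_simp

theorem mem_baseR (N k : ℕ) (hN : 0 < N) (w z s : ℝ) (h : InSectorR N k w z s) :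
    ![w + omR (1 / N) (mu N k) * z, s - nuR (mu N k) * z] ∈ baseR N k := by
  obtain ⟨h1, h2, h3⟩ := h
  have hN' : (0 : ℝ) < N := by exact_mod_cast hN
  have hr := rhoR_ge_one (1 / (N : ℝ)) (mu N k) (by positivity)
  have ht := tau_sub N k hN
  set r := rhoR (1 / (N : ℝ)) (mu N k) with hrdef
  set b1 := w + omR (1 / N) (mu N k) * z with hb1
  set b2 := s + 4 - nuR (mu N k) * z with hb2
  have hr0 : (0 : ℝ) < r := by linarith
  have hd : (0 : ℝ) < 2 / N := by positivity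
  have ht' : tau N (k + 1) = tau N k + 2 / N := by linarith
  rw [ht'] at h2
  have hb2n : 0 ≤ b2 := by
    have : 0 ≤ (2 / (N : ℝ)) * b2 := by linarith
    exact nonneg_of_mul_nonneg_right this hd
  refine ⟨((tau N k + 2 / N) * b2 - b1) / (8 * r / N), (b1 - tau N k * b2) / (8 * r / N), ?_, ?_,
    ?_, ?_⟩
  · exact div_nonneg (by linarith) (by positivity)
  · exact div_nonneg (by linarith) (by positivity)
  · rw [← add_div, div_le_one (by positivity)]
    have e : (tau N k + 2 / N) * b2 - b1 + (b1 - tau N k * b2) = (2 / N) * b2 := by ring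
    rw [e]
    have e2 : 8 * r / N = (2 / N) * (4 * r) := by ring
    rw [e2]
    exact mul_le_mul_of_nonneg_left h3 hd.le
  · have hs : s - nuR (mu N k) * z = b2 - 4 := by rw [hb2]; ring
    rw [hs]
    funext i
    fin_cases i
    · simp only [Fin.zero_eta, Matrix.cons_val_zero, Pi.add_apply, Pi.smul_apply, Pi.sub_apply,
        smul_eq_mul]
      rw [← hrdef, ht']
      field_simp
      ring
    · simp only [Fin.mk_one, Matrix.cons_val_one, Matrix.cons_val_zero, Pi.add_apply,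
        Pi.smul_apply, Pi.sub_apply, smul_eq_mul]
      rw [← hrdef]
      field_simp
      ring

/-! ### the cylinders -/

/-- first fan -/
noncomputable def fanR1 (N k : ℕ) : Cylinder E3 :=
  mkCyl (rowMap (rowA (omR (1 / N) (mu N k))) (rowB (nuR (mu N k))))
    (axis1 (omR (1 / N) (mu N k)) (nuR (mu N k))) (axis1_ne _ _) (row1_axis _ _) (row1_ker _ _)
    (row1_surj _ _) (baseR N k) (baseR_compact N k)

/-- second fan -/
noncomputable def fanR2 (N k : ℕ) : Cylinder E3 :=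
  mkCyl (rowMap (rowA' (omR (1 / N) (mu N k))) (rowB' (nuR (mu N k))))
    (axis2 (omR (1 / N) (mu N k)) (nuR (mu N k))) (axis2_ne _ _) (row2_axis _ _) (row2_ker _ _)
    (row2_surj _ _) (baseR N k) (baseR_compact N k)

/-- one term of the sum -/
noncomputable def termR (N k : ℕ) : ℝ :=
  (1 / (N : ℝ)) * rhoR (1 / N) (mu N k) ^ 2 / (1 - omR (1 / N) (mu N k))

theorem abs_nuR_le (h m : ℝ) (hm : m ^ 2 ≤ 1) (hh : h ^ 2 ≤ 1 / 4 * 0 + (1 - |m|) ^ 2 + 0) :
    |nuR m| ≤ -omR h m := by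
  unfold nuR omR
  have e : |2 * m / 5| = 2 * |m| / 5 := by
    rw [abs_div, abs_mul, abs_of_pos (by norm_num : (0 : ℝ) < 2),
      abs_of_pos (by norm_num : (0 : ℝ) < 5)]
  rw [e]
  have h2 : m ^ 2 = |m| ^ 2 := (sq_abs m).symm
  rw [h2]
  nlinarith

/-- `|m| + h ≤ 1` for the midpoints -/
theorem abs_mu_le (N k : ℕ) (hk : k < N) : |mu N k| ≤ 1 - 1 / N := by
  have hN0 : (0 : ℝ) < N := by
    have : 0 < N := by omega
    exact_mod_cast this
  have hk1 : (k : ℝ) + 1 ≤ N := by exact_mod_cast hk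
  have hk0 : (0 : ℝ) ≤ k := Nat.cast_nonneg k
  have e : (1 : ℝ) - 1 / N = (N - 1) / N := by field_simp
  rw [e, abs_le]
  unfold mu
  constructor
  · rw [← neg_div, div_le_div_iff_of_pos_right hN0]
    linarith
  · rw [div_le_div_iff_of_pos_right hN0]
    linarith

theorem slope_le (N k : ℕ) (hk : k < N) :
    |nuR (mu N k)| ≤ -omR (1 / N) (mu N k) := by
  have h := abs_mu_le N k hk
  have hN0 : (0 : ℝ) < N := by
    have : 0 < N := by omega
    exact_mod_cast this
  have h1 : (0 : ℝ) < 1 / N := by positivity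
  have h2 := abs_nonneg (mu N k)
  refine abs_nuR_le _ _ ?_ ?_
  · rw [← sq_abs]
    nlinarith
  · nlinarith

theorem omR_bounds (N k : ℕ) (hk : k < N) :
    omR (1 / N) (mu N k) ≤ 0 ∧ -1 ≤ omR (1 / N) (mu N k) := by
  have h := slope_le N k hk
  have h2 := abs_nonneg (nuR (mu N k))
  refine ⟨by linarith, ?_⟩
  have h3 := abs_mu_le N k hk
  have hN0 : (0 : ℝ) < N := by
    have : 0 < N := by omega
    exact_mod_cast this
  have h1 : (0 : ℝ) < 1 / N := by positivity
  have h4 : mu N k ^ 2 ≤ 1 := by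
    rw [← sq_abs]
    nlinarith [abs_nonneg (mu N k)]
  unfold omR
  nlinarith [sq_nonneg (1 / (N : ℝ))]

theorem ratio_aux {V S n A : ℝ} (hV : 0 ≤ V) (hn : 0 < n) (hA : 0 < A) (hS : 64 * A / n ≤ S) :
    V / (2 * n) / S ≤ V / (128 * A) := by
  have hS0 : 0 < S := lt_of_lt_of_le (by positivity) hS
  rw [div_div, div_le_div_iff₀ (by positivity) (by positivity)]
  have h : 64 * A ≤ S * n := (div_le_iff₀ hn).1 hS
  nlinarith

theorem ratio_fanR1 (N k : ℕ) (hk : k < N) :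
    (fanR1 N k).area / shadow (fanR1 N k).u tet ≤ termR N k / 4 := by
  have hN : 0 < N := by omega
  have hN0 : (0 : ℝ) < N := by exact_mod_cast hN
  obtain ⟨ho, ho'⟩ := omR_bounds N k hk
  have hs := slope_le N k hk
  set o := omR (1 / (N : ℝ)) (mu N k) with ho_def
  set n := nuR (mu N k) with hn_def
  have e : (axis1 o n) 0 = (1 - o) / 2 ∧ (axis1 o n) 1 = (1 + o) / 2 ∧ (axis1 o n) 2 = n := by
    refine ⟨?_, ?_, ?_⟩ <;> simp [axis1]
  have hsh := shadow_dir0 (axis1 o n) (by rw [e.1]; linarith) (by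
    rw [e.1, e.2.1, e.2.2, abs_of_nonneg (by linarith : 0 ≤ (1 + o) / 2)]
    linarith)
  rw [e.1] at hsh
  have ha : (fanR1 N k).area = (volume (baseR N k)).toReal / (2 * ‖axis1 o n‖) := by
    rw [norm_axis1, fanR1, area_mkCyl, gram1]
  have hu : (fanR1 N k).u = ‖axis1 o n‖⁻¹ • axis1 o n := rfl
  have hnp : 0 < ‖axis1 o n‖ := norm_pos_iff.2 (axis1_ne o n)
  rw [ha, hu]
  refine (ratio_aux ENNReal.toReal_nonneg hnp (by linarith) hsh).trans (le_of_eq ?_)
  rw [volume_baseR N k hN, termR, ← ho_def]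
  have h1 : (1 - o) ≠ 0 := by linarith
  field_simp
  ring

theorem ratio_fanR2 (N k : ℕ) (hk : k < N) :
    (fanR2 N k).area / shadow (fanR2 N k).u tet ≤ termR N k / 4 := by
  have hN : 0 < N := by omega
  have hN0 : (0 : ℝ) < N := by exact_mod_cast hN
  obtain ⟨ho, ho'⟩ := omR_bounds N k hk
  have hs := slope_le N k hk
  set o := omR (1 / (N : ℝ)) (mu N k) with ho_def
  set n := nuR (mu N k) with hn_def
  have e : (axis2 o n) 0 = -(1 + o) / 2 ∧ (axis2 o n) 1 = (1 - o) / 2 ∧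
      (axis2 o n) 2 = -n := by
    refine ⟨?_, ?_, ?_⟩ <;> simp [axis2]
  have hsh := shadow_dir1 (axis2 o n) (by rw [e.2.1]; linarith) (by
    rw [e.1, e.2.1, e.2.2, abs_neg, neg_div, abs_neg,
      abs_of_nonneg (by linarith : 0 ≤ (1 + o) / 2)]
    linarith)
  rw [e.2.1] at hsh
  have ha : (fanR2 N k).area = (volume (baseR N k)).toReal / (2 * ‖axis2 o n‖) := by
    rw [norm_axis2, fanR2, area_mkCyl, gram2]
  have hu : (fanR2 N k).u = ‖axis2 o n‖⁻¹ • axis2 o n := rfl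
  have hnp : 0 < ‖axis2 o n‖ := norm_pos_iff.2 (axis2_ne o n)
  rw [ha, hu]
  refine (ratio_aux ENNReal.toReal_nonneg hnp (by linarith) hsh).trans (le_of_eq ?_)
  rw [volume_baseR N k hN, termR, ← ho_def]
  have h1 : (1 - o) ≠ 0 := by linarith
  field_simp
  ring

theorem mem_fanR1 (N k : ℕ) (hN : 0 < N) (y : E3)
    (h : InSectorR N k (y 0 - y 1) (y 0 + y 1) (y 2)) : y ∈ (fanR1 N k).carrier := by
  refine mem_mkCyl _ _ _ _ _ _ _ _ y ?_
  have h' := mem_baseR N k hN _ _ _ h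
  rw [rowMap_apply]
  convert h' using 1
  funext i
  fin_cases i
  · simp [rowA]; ring
  · simp [rowB]; ring

theorem mem_fanR2 (N k : ℕ) (hN : 0 < N) (y : E3)
    (h : InSectorR N k (y 0 + y 1) (-(y 0 - y 1)) (-(y 2))) : y ∈ (fanR2 N k).carrier := by
  refine mem_mkCyl _ _ _ _ _ _ _ _ y ?_
  have h' := mem_baseR N k hN _ _ _ h
  rw [rowMap_apply]
  convert h' using 1
  funext i
  fin_cases i
  · simp [rowA']; ring
  · simp [rowB']; ring

/-- both fans -/
noncomputable def fansR (N : ℕ) : Fin (N + N) → Cylinder E3 :=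
  Fin.append (fun k : Fin N => fanR1 N k) (fun k : Fin N => fanR2 N k)

theorem fansR_cover (N : ℕ) (hN : 1000 ≤ N) : tet ⊆ ⋃ i, (fansR N i).carrier := by
  rintro y ⟨h1, h2, h3, h4⟩
  have hw : |y 0 - y 1| ≤ 4 + y 2 := abs_le.2 ⟨by linarith, by linarith⟩
  have hz : |y 0 + y 1| ≤ 4 - y 2 := abs_le.2 ⟨by linarith, by linarith⟩
  have hN0 : 0 < N := by omega
  rw [Set.mem_iUnion]
  obtain ⟨k, hk, h | h⟩ := coverR N hN _ _ _ hw hz
  · refine ⟨Fin.castAdd N ⟨k, hk⟩, ?_⟩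
    rw [fansR, Fin.append_left]
    exact mem_fanR1 N k hN0 y h
  · refine ⟨Fin.natAdd N ⟨k, hk⟩, ?_⟩
    rw [fansR, Fin.append_right]
    exact mem_fanR2 N k hN0 y h

theorem fansR_rel (N : ℕ) (hN : 10000 ≤ N) : relSum (fansR N) tet ≤ 434 / 1000 := by
  have a1 : ∀ i : Fin N, (fansR N (Fin.castAdd N i)).area /
      shadow (fansR N (Fin.castAdd N i)).u tet ≤ termR N i / 4 := by
    intro i
    rw [fansR, Fin.append_left]
    exact ratio_fanR1 N i i.2
  have a2 : ∀ i : Fin N, (fansR N (Fin.natAdd N i)).area /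
      shadow (fansR N (Fin.natAdd N i)).u tet ≤ termR N i / 4 := by
    intro i
    rw [fansR, Fin.append_right]
    exact ratio_fanR2 N i i.2
  rw [relSum, Fin.sum_univ_add]
  refine (add_le_add (Finset.sum_le_sum fun i _ => a1 i)
    (Finset.sum_le_sum fun i _ => a2 i)).trans ?_
  have e : ∑ i : Fin N, termR N i / 4 = (∑ k ∈ Finset.range N, termR N k) / 4 := by
    rw [← Finset.sum_div, Finset.sum_range]
  rw [e]
  have h := sumR_le N hN
  have h' : ∑ k ∈ Finset.range N, termR N k ≤ 868 / 1000 := h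
  linarith

theorem r3_le_fan : r3 ≤ 434 / 1000 := by
  refine le_trans (csInf_le ⟨0, ?_⟩ ⟨tet, tet_body, 10000 + 10000, fansR 10000,
    fansR_cover 10000 (by norm_num), rfl⟩) (fansR_rel 10000 le_rfl)
  rintro R ⟨K, _, m, C, _, rfl⟩
  exact Finset.sum_nonneg fun _ _ => div_nonneg ENNReal.toReal_nonneg ENNReal.toReal_nonneg

end Vale.Agent.P243
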