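import Vale.Agent.Lib.P243.Rel.Base

/-!
# The polynomial inequality, `c = 1/5`

Notation `u = a²`, `v = b²`, `y = a b`.  For `h = 0`, `s = a`, `t = b` the coefficients are
`A = 1 + (1-u)(1+v)/25 - 2y/5`, `B = 1 + (1+u)(1-v)/25 + 2y/5`, `V = 1 + (1+u)(1+v)/25` and the
claim `A (1 + eeR u) + B (1 + eeR v) ≥ 2 V` is, after multiplication by `25` and with
`E(u) = 25 eeR u = 2u + 2u² + (26/25) u⁴`,
`2(u-v)² + (26/25)(u⁴+v⁴) - (2y/5)(E(u)-E(v)) + (1/25)(E(u)(1-u)(1+v) + E(v)(1-v)(1+u)) ≥ 0`.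
Put `M = 2(1+u+v) + (26/25)(u³+u²v+uv²+v³)`, so `E(u) - E(v) = (u-v) M`; the left side is
`2((u-v) - yM/10)² + (1/25)[ 26(u⁴+v⁴) + E(u)(1-u)(1+v) + E(v)(1-v)(1+u) - uvM²/2 ]`
and the bracket is nonnegative for `u, v ∈ [0,1]` (`polyR_core`; at `u=v=1` it is
`52 - (10.16)²/2 = 0.387`).

For `0 < h ≤ 1/1000`: `omR h a = omR 0 a + h²/5`; the term `h` in both `rhoR` contributes
`h (A+B) ≥ 1.99 h` and the changes `s - a`, `t - b` cost at most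
`h (|nuR a * omR b - nuR b| rhoR a + |nuR a + omR a * nuR b| rhoR b) ≤ 1.36 h`, the change of
`omR` costs at most `2 h²` (crudely).
-/

namespace Vale.Agent.P243

private theorem PolyR_f0 (s : ℝ) (hs : 0 ≤ s) (hs2 : s ≤ 2) :
    0 ≤ 2 + 1 / 2 * s - 3 / 2 * s ^ 2 + 263 / 100 * s ^ 3 - 13 / 50 * s ^ 4 -
      117 / 400 * s ^ 5 - 169 / 5000 * s ^ 7 := by
  have h1 : 0 ≤ s * (2 - s) := mul_nonneg hs (by linarith)
  have h2 : 0 ≤ 9032 / 10000 + 7016 / 10000 * s - 3992 / 10000 * s ^ 2 + 11154 / 10000 * s ^ 3 +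
      4277 / 10000 * s ^ 4 + 676 / 10000 * s ^ 5 + 338 / 10000 * s ^ 6 := by
    have h3 : 0 ≤ 11154 / 10000 * s ^ 3 + 4277 / 10000 * s ^ 4 + 676 / 10000 * s ^ 5 +
      338 / 10000 * s ^ 6 := by positivity
    nlinarith
  have h4 := mul_nonneg (by linarith : (0 : ℝ) ≤ 2 - s) h2
  have e : 2 + 1 / 2 * s - 3 / 2 * s ^ 2 + 263 / 100 * s ^ 3 - 13 / 50 * s ^ 4 -
      117 / 400 * s ^ 5 - 169 / 5000 * s ^ 7 = 1936 / 10000 + (2 - s) * (9032 / 10000 +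
      7016 / 10000 * s - 3992 / 10000 * s ^ 2 + 11154 / 10000 * s ^ 3 +
      4277 / 10000 * s ^ 4 + 676 / 10000 * s ^ 5 + 338 / 10000 * s ^ 6) := by ring
  rw [e]
  linarith

private theorem PolyR_sq (s q : ℝ) (hs : 0 ≤ s) (hs2 : s ≤ 2) (hq : 0 ≤ q)
    (hqs : q ≤ s ^ 2 / 4) :
    0 ≤ s * (2 + 1 / 2 * s - 3 / 2 * s ^ 2 + 263 / 100 * s ^ 3 - 13 / 50 * s ^ 4 -
      117 / 400 * s ^ 5 - 169 / 5000 * s ^ 7) +
      q * (-2 - 2 * s + 2078 / 25 * s ^ 2 - 52 / 25 * s ^ 3 - 13 / 20 * s ^ 4 -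
        169 / 1250 * s ^ 6) +
      q ^ 2 * (1452 / 25 - 104 / 25 * s + 169 / 25 * s ^ 2 + 338 / 625 * s ^ 4) +
      q ^ 3 * (52 / 25 + 1352 / 625 * s ^ 2) := by
  have h3 : 0 ≤ q ^ 3 * (52 / 25 + 1352 / 625 * s ^ 2) := by positivity
  have h2 : 0 ≤ q ^ 2 * (1452 / 25 - 104 / 25 * s + 169 / 25 * s ^ 2 + 338 / 625 * s ^ 4) := by
    have : 0 ≤ 169 / 25 * s ^ 2 + 338 / 625 * s ^ 4 := by positivity
    exact mul_nonneg (sq_nonneg q) (by linarith)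
  rcases le_total s (1 / 2) with h | h
  · have k1 : s ^ 2 ≤ 1 / 4 := by nlinarith
    have k2 : 0 ≤ s ^ 2 := sq_nonneg s
    have k3 : s ^ 3 ≤ 1 / 8 := by
      calc s ^ 3 ≤ (1 / 2) ^ 3 := pow_le_pow_left₀ hs h 3
        _ = 1 / 8 := by norm_num
    have k30 : 0 ≤ s ^ 3 := by positivity
    have k4 : s ^ 4 ≤ 1 / 16 := by
      calc s ^ 4 ≤ (1 / 2) ^ 4 := pow_le_pow_left₀ hs h 4
        _ = 1 / 16 := by norm_num
    have k5 : s ^ 5 ≤ 1 / 32 := by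
      calc s ^ 5 ≤ (1 / 2) ^ 5 := pow_le_pow_left₀ hs h 5
        _ = 1 / 32 := by norm_num
    have k6 : s ^ 6 ≤ 1 / 64 := by
      calc s ^ 6 ≤ (1 / 2) ^ 6 := pow_le_pow_left₀ hs h 6
        _ = 1 / 64 := by norm_num
    have k7 : s ^ 7 ≤ 1 / 128 := by
      calc s ^ 7 ≤ (1 / 2) ^ 7 := pow_le_pow_left₀ hs h 7
        _ = 1 / 128 := by norm_num
    have a0 : 1 ≤ 2 + 1 / 2 * s - 3 / 2 * s ^ 2 + 263 / 100 * s ^ 3 - 13 / 50 * s ^ 4 -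
      117 / 400 * s ^ 5 - 169 / 5000 * s ^ 7 := by linarith
    have a1 : -4 ≤ -2 - 2 * s + 2078 / 25 * s ^ 2 - 52 / 25 * s ^ 3 - 13 / 20 * s ^ 4 -
        169 / 1250 * s ^ 6 := by linarith
    have b0 := mul_le_mul_of_nonneg_left a0 hs
    have b1 := mul_le_mul_of_nonneg_left a1 hq
    have b2 : s ^ 2 ≤ s * (1 / 2) := by nlinarith
    linarith
  · have c0 := mul_nonneg hs (PolyR_f0 s hs hs2)
    have c1 : 0 ≤ -2 - 2 * s + 2078 / 25 * s ^ 2 - 52 / 25 * s ^ 3 - 13 / 20 * s ^ 4 -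
        169 / 1250 * s ^ 6 := by
      have d0 : 0 ≤ s ^ 2 := sq_nonneg s
      have d1 : 1 / 4 ≤ s ^ 2 := by nlinarith
      have d2 : s ^ 3 ≤ 2 * s ^ 2 := by
        have := mul_le_mul_of_nonneg_left hs2 d0
        nlinarith
      have e4 : s ^ 2 ≤ 4 := by nlinarith
      have d3 : s ^ 4 ≤ 4 * s ^ 2 := by
        have := mul_le_mul_of_nonneg_left e4 d0
        nlinarith
      have d4 : s ^ 6 ≤ 16 * s ^ 2 := by
        have e5 : s ^ 4 ≤ 16 := by nlinarith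
        have := mul_le_mul_of_nonneg_left e5 d0
        nlinarith
      nlinarith
    have c2 := mul_nonneg hq c1
    exact add_nonneg (add_nonneg (add_nonneg c0 c2) h2) h3

theorem polyR_core (u v : ℝ) (hu : 0 ≤ u) (hu' : u ≤ 1) (hv : 0 ≤ v) (hv' : v ≤ 1) :
    u * v * (2 * (1 + u + v) + 26 / 25 * (u ^ 3 + u ^ 2 * v + u * v ^ 2 + v ^ 3)) ^ 2 / 2 ≤
      26 * (u ^ 4 + v ^ 4) + (2 * u + 2 * u ^ 2 + 26 / 25 * u ^ 4) * (1 - u) * (1 + v) +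
        (2 * v + 2 * v ^ 2 + 26 / 25 * v ^ 4) * (1 - v) * (1 + u) := by
  have hq : 0 ≤ (u - v) ^ 2 / 4 := by positivity
  have hqs : (u - v) ^ 2 / 4 ≤ (u + v) ^ 2 / 4 := by nlinarith [mul_nonneg hu hv]
  have key := PolyR_sq (u + v) ((u - v) ^ 2 / 4) (by linarith) (by linarith) hq hqs
  have e : 26 * (u ^ 4 + v ^ 4) + (2 * u + 2 * u ^ 2 + 26 / 25 * u ^ 4) * (1 - u) * (1 + v) +
        (2 * v + 2 * v ^ 2 + 26 / 25 * v ^ 4) * (1 - v) * (1 + u) -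
      u * v * (2 * (1 + u + v) + 26 / 25 * (u ^ 3 + u ^ 2 * v + u * v ^ 2 + v ^ 3)) ^ 2 / 2 =
      (u + v) * (2 + 1 / 2 * (u + v) - 3 / 2 * (u + v) ^ 2 + 263 / 100 * (u + v) ^ 3 -
        13 / 50 * (u + v) ^ 4 - 117 / 400 * (u + v) ^ 5 - 169 / 5000 * (u + v) ^ 7) +
      (u - v) ^ 2 / 4 * (-2 - 2 * (u + v) + 2078 / 25 * (u + v) ^ 2 - 52 / 25 * (u + v) ^ 3 -
        13 / 20 * (u + v) ^ 4 - 169 / 1250 * (u + v) ^ 6) +
      ((u - v) ^ 2 / 4) ^ 2 * (1452 / 25 - 104 / 25 * (u + v) + 169 / 25 * (u + v) ^ 2 +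
        338 / 625 * (u + v) ^ 4) +
      ((u - v) ^ 2 / 4) ^ 3 * (52 / 25 + 1352 / 625 * (u + v) ^ 2) := by
    ring
  linarith

/-- the case `h = 0`, `s = a`, `t = b` -/
theorem polyR_zero (a b : ℝ) (ha : |a| ≤ 1) (hb : |b| ≤ 1) :
    2 * (1 + omR 0 a * omR 0 b) ≤
      (1 + omR 0 a * omR 0 b + a * (nuR a * omR 0 b - nuR b)) * rhoR 0 a +
        (1 + omR 0 a * omR 0 b + b * (nuR a + omR 0 a * nuR b)) * rhoR 0 b := by
  have hu' : a ^ 2 ≤ 1 := by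
    have := abs_le.1 ha
    nlinarith [this.1, this.2]
  have hv' : b ^ 2 ≤ 1 := by
    have := abs_le.1 hb
    nlinarith [this.1, this.2]
  have hB := polyR_core (a ^ 2) (b ^ 2) (sq_nonneg a) hu' (sq_nonneg b) hv'
  have hS : 0 ≤ (a ^ 2 - b ^ 2 - a * b * (2 * (1 + a ^ 2 + b ^ 2) + 26 / 25 * ((a ^ 2) ^ 3 +
      (a ^ 2) ^ 2 * b ^ 2 + a ^ 2 * (b ^ 2) ^ 2 + (b ^ 2) ^ 3)) / 10) ^ 2 := sq_nonneg _
  have key : (1 + omR 0 a * omR 0 b + a * (nuR a * omR 0 b - nuR b)) * rhoR 0 a +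
        (1 + omR 0 a * omR 0 b + b * (nuR a + omR 0 a * nuR b)) * rhoR 0 b -
        2 * (1 + omR 0 a * omR 0 b) =
      (2 / 25) * (a ^ 2 - b ^ 2 - a * b * (2 * (1 + a ^ 2 + b ^ 2) + 26 / 25 * ((a ^ 2) ^ 3 +
      (a ^ 2) ^ 2 * b ^ 2 + a ^ 2 * (b ^ 2) ^ 2 + (b ^ 2) ^ 3)) / 10) ^ 2 +
      (1 / 625) * (26 * ((a ^ 2) ^ 4 + (b ^ 2) ^ 4) +
      (2 * a ^ 2 + 2 * (a ^ 2) ^ 2 + 26 / 25 * (a ^ 2) ^ 4) * (1 - a ^ 2) * (1 + b ^ 2) +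
      (2 * b ^ 2 + 2 * (b ^ 2) ^ 2 + 26 / 25 * (b ^ 2) ^ 4) * (1 - b ^ 2) * (1 + a ^ 2) -
      a ^ 2 * b ^ 2 * (2 * (1 + a ^ 2 + b ^ 2) + 26 / 25 * ((a ^ 2) ^ 3 +
      (a ^ 2) ^ 2 * b ^ 2 + a ^ 2 * (b ^ 2) ^ 2 + (b ^ 2) ^ 3)) ^ 2 / 2) := by
    unfold omR rhoR nuR eeR
    ring
  linarith

private theorem PolyR_om (h m : ℝ) (hh : 0 < h) (hh' : h ≤ 1 / 1000) (hm : |m| ≤ 1) :
    -(2 / 5) ≤ omR h m ∧ omR h m ≤ 0 := by
  have h1 := abs_le.1 hm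
  have h2 : m ^ 2 ≤ 1 := by nlinarith [h1.1, h1.2]
  have h3 : 0 ≤ m ^ 2 := sq_nonneg m
  have h4 : h ^ 2 ≤ 1 := by nlinarith
  have h5 : 0 ≤ h ^ 2 := sq_nonneg h
  unfold omR
  constructor <;> linarith

private theorem PolyR_nu (m : ℝ) (hm : |m| ≤ 1) : |nuR m| ≤ 2 / 5 := by
  unfold nuR
  rw [abs_div, abs_of_pos (by norm_num : (0 : ℝ) < 5), abs_mul,
    abs_of_pos (by norm_num : (0 : ℝ) < 2)]
  linarith

private theorem PolyR_c1 (h a b : ℝ) (hh : 0 < h) (hh' : h ≤ 1 / 1000) (ha : |a| ≤ 1)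
    (hb : |b| ≤ 1) : |nuR a * omR h b - nuR b| ≤ 14 / 25 := by
  have h1 := PolyR_nu a ha
  have h2 := PolyR_nu b hb
  have h3 := PolyR_om h b hh hh' hb
  have h4 : |omR h b| ≤ 2 / 5 := abs_le.2 ⟨h3.1, by linarith [h3.2]⟩
  have h5 : |nuR a * omR h b| ≤ 2 / 5 * (2 / 5) := by
    rw [abs_mul]
    exact mul_le_mul h1 h4 (abs_nonneg _) (by norm_num)
  calc |nuR a * omR h b - nuR b| ≤ |nuR a * omR h b| + |nuR b| := abs_sub _ _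
    _ ≤ 14 / 25 := by linarith

private theorem PolyR_c2 (h a b : ℝ) (hh : 0 < h) (hh' : h ≤ 1 / 1000) (ha : |a| ≤ 1)
    (hb : |b| ≤ 1) : |nuR a + omR h a * nuR b| ≤ 14 / 25 := by
  have h1 := PolyR_nu a ha
  have h2 := PolyR_nu b hb
  have h3 := PolyR_om h a hh hh' ha
  have h4 : |omR h a| ≤ 2 / 5 := abs_le.2 ⟨h3.1, by linarith [h3.2]⟩
  have h5 : |omR h a * nuR b| ≤ 2 / 5 * (2 / 5) := by
    rw [abs_mul]
    exact mul_le_mul h4 h2 (abs_nonneg _) (by norm_num)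
  calc |nuR a + omR h a * nuR b| ≤ |nuR a| + |omR h a * nuR b| := abs_add_le _ _
    _ ≤ 14 / 25 := by linarith

private theorem PolyR_prod {x y c d : ℝ} (hx : |x| ≤ c) (hy : |y| ≤ d) (hc : 0 ≤ c) :
    -(c * d) ≤ x * y := by
  have h1 : |x * y| ≤ c * d := by
    rw [abs_mul]
    exact mul_le_mul hx hy (abs_nonneg _) hc
  exact (abs_le.1 h1).1

private theorem PolyR_rho (a : ℝ) (ha : |a| ≤ 1) : 1 ≤ rhoR 0 a ∧ rhoR 0 a ≤ 121 / 100 := by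
  have h1 := abs_le.1 ha
  have h2 : a ^ 2 ≤ 1 := by nlinarith [h1.1, h1.2]
  have h3 : 0 ≤ a ^ 2 := sq_nonneg a
  have h4 : (a ^ 2) ^ 2 ≤ 1 := pow_le_one₀ h3 h2
  have h5 : (a ^ 2) ^ 4 ≤ 1 := pow_le_one₀ h3 h2
  have h6 : 0 ≤ (a ^ 2) ^ 2 := by positivity
  have h7 : 0 ≤ (a ^ 2) ^ 4 := by positivity
  unfold rhoR eeR
  constructor <;> linarith

private theorem PolyR_xb (h D p n : ℝ) (hh3 : h ^ 2 ≤ h / 1000) (hD : D ≤ 4 * h ^ 2 / 25)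
    (hh : 0 < h) (hp : -(h * (14 / 25)) ≤ p) (hn : 0 ≤ n) : -(3 * h / 5) ≤ -D + p + n := by
  linarith

private theorem PolyR_comb (h D V A0 B0 Xa Xb ra rb : ℝ) (hh : 0 < h) (hh3 : h ^ 2 ≤ h / 1000)
    (hD : 0 ≤ D) (hz : 2 * V ≤ A0 * ra + B0 * rb) (hAB : 2 ≤ A0 + B0)
    (hXa : -(3 * h / 5) ≤ Xa) (hXb : -(3 * h / 5) ≤ Xb) (ra1 : 0 ≤ ra) (ra2 : ra ≤ 121 / 100)
    (rb1 : 0 ≤ rb) (rb2 : rb ≤ 121 / 100) :
    2 * (V - D) ≤ (A0 + Xa) * (ra + h) + (B0 + Xb) * (rb + h) := by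
  have q1 : -(3 * h / 5 * (121 / 100)) ≤ Xa * ra := by
    have k1 : -(3 * h / 5) * ra ≤ Xa * ra := mul_le_mul_of_nonneg_right hXa ra1
    have k2 : 3 * h / 5 * ra ≤ 3 * h / 5 * (121 / 100) :=
      mul_le_mul_of_nonneg_left ra2 (by linarith)
    linarith
  have q2 : -(3 * h / 5 * (121 / 100)) ≤ Xb * rb := by
    have k1 : -(3 * h / 5) * rb ≤ Xb * rb := mul_le_mul_of_nonneg_right hXb rb1
    have k2 : 3 * h / 5 * rb ≤ 3 * h / 5 * (121 / 100) :=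
      mul_le_mul_of_nonneg_left rb2 (by linarith)
    linarith
  have q3 : h * 2 ≤ h * (A0 + B0) := mul_le_mul_of_nonneg_left hAB (by linarith)
  have q4 : h * (-(6 * h / 5)) ≤ h * (Xa + Xb) :=
    mul_le_mul_of_nonneg_left (by linarith) (by linarith)
  have e1 : (A0 + Xa) * (ra + h) + (B0 + Xb) * (rb + h) =
      (A0 * ra + B0 * rb) + Xa * ra + Xb * rb + h * (A0 + B0) + h * (Xa + Xb) := by
    ring
  have e2 : h * (-(6 * h / 5)) = -(6 / 5 * h ^ 2) := by ring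
  rw [e1]
  rw [e2] at q4
  linarith

private theorem PolyR_d (h u v : ℝ) (hh : 0 ≤ h ^ 2) (h1 : h ^ 2 ≤ 1) (hu : 0 ≤ u) (hu' : u ≤ 1)
    (hv : 0 ≤ v) (hv' : v ≤ 1) :
    0 ≤ h ^ 2 / 25 * (2 + u + v - h ^ 2) ∧ h ^ 2 / 25 * (2 + u + v - h ^ 2) ≤ 4 * h ^ 2 / 25 := by
  have h0 : 0 ≤ h ^ 2 / 25 := by positivity
  constructor
  · exact mul_nonneg h0 (by linarith)
  · have : h ^ 2 / 25 * (2 + u + v - h ^ 2) ≤ h ^ 2 / 25 * 4 :=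
      mul_le_mul_of_nonneg_left (by linarith) h0
    linarith

private theorem PolyR_sqle (a : ℝ) (ha : |a| ≤ 1) : a ^ 2 ≤ 1 := by
  have := abs_le.1 ha
  nlinarith [this.1, this.2]

private theorem PolyR_eW (h a b : ℝ) :
    1 + omR h a * omR h b =
      (1 + omR 0 a * omR 0 b) - h ^ 2 / 25 * (2 + a ^ 2 + b ^ 2 - h ^ 2) := by
  unfold omR
  ring

private theorem PolyR_eA (h a b s : ℝ) :
    1 + omR h a * omR h b + s * (nuR a * omR h b - nuR b) =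
      (1 + omR 0 a * omR 0 b + a * (nuR a * omR 0 b - nuR b)) +
        (-(h ^ 2 / 25 * (2 + a ^ 2 + b ^ 2 - h ^ 2)) + (s - a) * (nuR a * omR h b - nuR b) +
          2 * a ^ 2 * h ^ 2 / 25) := by
  unfold omR nuR
  ring

private theorem PolyR_eB (h a b t : ℝ) :
    1 + omR h a * omR h b + t * (nuR a + omR h a * nuR b) =
      (1 + omR 0 a * omR 0 b + b * (nuR a + omR 0 a * nuR b)) +
        (-(h ^ 2 / 25 * (2 + a ^ 2 + b ^ 2 - h ^ 2)) + (t - b) * (nuR a + omR h a * nuR b) +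
          2 * b ^ 2 * h ^ 2 / 25) := by
  unfold omR nuR
  ring

private theorem PolyR_AB (a b : ℝ) (hu : a ^ 2 ≤ 1) (hv : b ^ 2 ≤ 1) :
    2 ≤ (1 + omR 0 a * omR 0 b + a * (nuR a * omR 0 b - nuR b)) +
      (1 + omR 0 a * omR 0 b + b * (nuR a + omR 0 a * nuR b)) := by
  have e : (1 + omR 0 a * omR 0 b + a * (nuR a * omR 0 b - nuR b)) +
      (1 + omR 0 a * omR 0 b + b * (nuR a + omR 0 a * nuR b)) =
      2 + (2 - 2 * (a ^ 2 * b ^ 2)) / 25 := by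
    unfold omR nuR
    ring
  have h1 : a ^ 2 * b ^ 2 ≤ 1 := mul_le_one₀ hu (sq_nonneg b) hv
  rw [e]
  linarith

theorem polyR_main (h a b s t : ℝ) (hh : 0 < h) (hh' : h ≤ 1 / 1000) (ha : |a| ≤ 1)
    (hb : |b| ≤ 1) (hs : |s - a| ≤ h) (ht : |t - b| ≤ h) :
    2 * (1 + omR h a * omR h b) ≤
      (1 + omR h a * omR h b + s * (nuR a * omR h b - nuR b)) * rhoR h a +
        (1 + omR h a * omR h b + t * (nuR a + omR h a * nuR b)) * rhoR h b := by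
  have hz := polyR_zero a b ha hb
  have p1 := PolyR_prod hs (PolyR_c1 h a b hh hh' ha hb) hh.le
  have p2 := PolyR_prod ht (PolyR_c2 h a b hh hh' ha hb) hh.le
  obtain ⟨ra1, ra2⟩ := PolyR_rho a ha
  obtain ⟨rb1, rb2⟩ := PolyR_rho b hb
  have hu' := PolyR_sqle a ha
  have hv' := PolyR_sqle b hb
  have hh2 : 0 ≤ h ^ 2 := sq_nonneg h
  have hh3 : h ^ 2 ≤ h / 1000 := by nlinarith
  have hD := PolyR_d h (a ^ 2) (b ^ 2) hh2 (by linarith) (sq_nonneg a) hu' (sq_nonneg b) hv'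
  have hAB := PolyR_AB a b hu' hv'
  have hr : ∀ m, rhoR h m = rhoR 0 m + h := by
    intro m
    unfold rhoR
    ring
  have n1 : 0 ≤ 2 * a ^ 2 * h ^ 2 / 25 := by positivity
  have n2 : 0 ≤ 2 * b ^ 2 * h ^ 2 / 25 := by positivity
  have hXa := PolyR_xb h _ _ _ hh3 hD.2 hh p1 n1
  have hXb := PolyR_xb h _ _ _ hh3 hD.2 hh p2 n2
  rw [PolyR_eA, PolyR_eB, hr, hr, PolyR_eW]
  exact PolyR_comb h _ _ _ _ _ _ _ _ hh hh3 hD.1 hz hAB hXa hXb (by linarith) ra2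
    (by linarith) rb2

/-- positivity of the two coefficients -/
theorem coefR_pos (h a b s t : ℝ) (hh : 0 < h) (hh' : h ≤ 1 / 1000) (ha : |a| ≤ 1) (hb : |b| ≤ 1)
    (hs : |s| ≤ 1) (ht : |t| ≤ 1) :
    0 < 1 + omR h a * omR h b + s * (nuR a * omR h b - nuR b) ∧
      0 < 1 + omR h a * omR h b + t * (nuR a + omR h a * nuR b) := by
  have hc1 := PolyR_c1 h a b hh hh' ha hb
  have hc2 := PolyR_c2 h a b hh hh' ha hb
  have p1 := PolyR_prod hs hc1 (by norm_num)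
  have p2 := PolyR_prod ht hc2 (by norm_num)
  obtain ⟨-, x1⟩ := PolyR_om h a hh hh' ha
  obtain ⟨-, x2⟩ := PolyR_om h b hh hh' hb
  have h1 : 0 ≤ omR h a * omR h b := mul_nonneg_of_nonpos_of_nonpos x1 x2
  constructor
  · linarith
  · linarith

end Vale.Agent.P243
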